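import Vale.Agent.P106.R.E8.Defs
import Vale.Agent.P106.R.E.Res
import Vale.Agent.P122.H380.Frame

/-!
# P106 / R / E8 : the frame lemma `StFRM` from the uncrossing `StUNX` (helper679; after P122/H380/Frame, helper380)

Two conditionally independent copies given the piece `sig c d`.  The ray of the piece is the same for both copies, so the pairwise
boxes `PB` of the second copy are pairwise boxes around the same rays.
-/

set_option autoImplicit false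

namespace Vale.Agent.P106.R.H679

open Filter Topology Finset Vale.Agent.P127 Vale.Agent.P127.Stk Vale.Agent.P127.U Vale.Agent.P127.U.Sys Vale.Agent.P106.R.C2
  Vale.Agent.P106.R.E Vale.Agent.P106.R.E8
open Vale.Agent.P122.H380 (cp cpS cp0 cp1 cp_supp onS onDns onS_supp dExt mi_cpS on_supp prE_mono' prE_or_le
  prE_cp_fst prE_cp_snd select ol_nat)

/-! ### angles -/

theorem norm_ang (n : Fin 2 → ℝ) : ‖(⟨n 1, -(n 0)⟩ : ℂ)‖ ^ 2 = n 0 ^ 2 + n 1 ^ 2 := by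
  rw [Complex.sq_norm, Complex.normSq_mk]
  ring

theorem sin_ang {a b : Fin 2 → ℝ} {C e : ℝ} (hC : 0 < C) (ha : 1 ≤ C * (a 0 ^ 2 + a 1 ^ 2))
    (hb : 1 ≤ C * (b 0 ^ 2 + b 1 ^ 2)) (h : |crs a b| ≤ e) : |Real.sin (E8.ang a - E8.ang b)| ≤ C * e := by
  have nA := norm_ang a
  have nB := norm_ang b
  set A : ℝ := ‖(⟨a 1, -(a 0)⟩ : ℂ)‖ with hA
  set B : ℝ := ‖(⟨b 1, -(b 0)⟩ : ℂ)‖ with hB
  have A0 : 0 ≤ A := norm_nonneg _
  have B0 : 0 ≤ B := norm_nonneg _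
  have hA1 : 1 ≤ C * A ^ 2 := by rw [nA]; exact ha
  have hB1 : 1 ≤ C * B ^ 2 := by rw [nB]; exact hb
  have Ap : 0 < A := by
    rcases A0.lt_or_eq with h1 | h1
    · exact h1
    · rw [← h1] at hA1
      norm_num at hA1
  have Bp : 0 < B := by
    rcases B0.lt_or_eq with h1 | h1
    · exact h1
    · rw [← h1] at hB1
      norm_num at hB1
  have ABp : 0 < A * B := mul_pos Ap Bp
  have hAB : 1 ≤ C * (A * B) := by
    have h1 : 1 ≤ (C * (A * B)) ^ 2 := by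
      have : (C * (A * B)) ^ 2 = (C * A ^ 2) * (C * B ^ 2) := by ring
      rw [this]
      nlinarith
    by_contra hcon
    push Not at hcon
    have h2 : 0 ≤ C * (A * B) := by positivity
    nlinarith
  have zA : (⟨a 1, -(a 0)⟩ : ℂ) ≠ 0 := norm_pos_iff.1 Ap
  have zB : (⟨b 1, -(b 0)⟩ : ℂ) ≠ 0 := norm_pos_iff.1 Bp
  have hs : Real.sin (E8.ang a - E8.ang b) = -crs a b / (A * B) := by
    unfold E8.ang
    rw [Real.sin_sub, Complex.sin_arg, Complex.sin_arg, Complex.cos_arg zA, Complex.cos_arg zB]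
    show (-(a 0)) / A * (b 1 / B) - a 1 / A * (-(b 0) / B) = -crs a b / (A * B)
    unfold crs
    field_simp
    ring
  rw [hs, abs_div, abs_neg, abs_of_pos ABp, div_le_iff₀ ABp]
  have he : 0 ≤ e := (abs_nonneg _).trans h
  nlinarith [mul_le_mul_of_nonneg_left hAB he]

theorem crs_le_of_lev {n : ℕ} {M t : ℝ} (ht : 0 < t) (h : t ≤ (C1.lev n M : ℝ)) : M ≤ 2 * (2 : ℝ) ^ (-t) := by
  classical
  have h0 : C1.lev n M ≠ 0 := by
    intro h1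
    rw [h1] at h
    norm_num at h
    linarith
  have h1 : M ≤ 2 * (1 / 2 : ℝ) ^ C1.lev n M :=
    Nat.findGreatest_of_ne_zero (P := fun k => M ≤ 2 * (1 / 2 : ℝ) ^ k) (n := n) rfl h0
  refine h1.trans ?_
  have h2 : (1 / 2 : ℝ) ^ (C1.lev n M) = (2:ℝ) ^ (-(C1.lev n M : ℝ)) := by
    rw [Real.rpow_neg (by norm_num), Real.rpow_natCast, one_div, inv_pow]
  rw [h2]
  have h3 : (2:ℝ) ^ (-(C1.lev n M : ℝ)) ≤ (2:ℝ) ^ (-t) :=
    Real.rpow_le_rpow_of_exponent_le (by norm_num) (by linarith)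
  linarith

theorem crs_comm (a b : Fin 2 → ℝ) : |crs a b| = |crs b a| := by
  have : crs a b = -crs b a := by
    unfold crs
    ring
  rw [this, abs_neg]

/-! ### the statement, tameness under all dense laws -/

/-- **[FRM]** frame lemma, with tameness under all dense laws -/
def StFRM' : Prop := ∀ {K : ℕ} (F : Flg K) (c d : ℕ), 1 ≤ K → 1 ≤ c → c ≤ d → d ≤ 2 * c → d ≤ K → 2 * (d - c) ≤ F.h →
  ∀ (T₁ T₂ : Type) (Z₁ : F.S.RV T₁) (Z₂ : F.S.RV T₂) (f₁ f₂ : F.S.RV E8.Fr) (C : ℝ) (m' k₁ k₂ : ℕ → ℕ) (v₁ v₂ x g g' : ℝ),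
    (∀ᶠ i in (uf : Filter ℕ), k₁ i ≤ m' i ∧ k₂ i ≤ m' i ∧ m' i ≤ mm F c d i) →
    Sys.Fn (F.ball c) Z₁ → Sys.Fn (F.ball c) Z₂ →
    (∀ (S' : Sys) (dd : Dns S' F.S) (_ : ∀ i ω, 0 < (S'.P i).w ω → 0 < (F.S.P i).w (dd.π i ω)), Tame (dd.pull Z₁)) →
    (∀ (S' : Sys) (dd : Dns S' F.S) (_ : ∀ i ω, 0 < (S'.P i).w ω → 0 < (F.S.P i).w (dd.π i ω)), Tame (dd.pull Z₂)) →
    PB C (Hc F c) (fun i => (1 / 2 : ℝ) ^ mm F c d i) (pray F c d) Z₁ f₁ (fun i _ => (1 / 2 : ℝ) ^ m' i)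
      (fun i _ => (1 / 2 : ℝ) ^ k₁ i) →
    PB C (Hc F c) (fun i => (1 / 2 : ℝ) ^ mm F c d i) (pray F c d) Z₂ f₂ (fun i _ => (1 / 2 : ℝ) ^ m' i)
      (fun i _ => (1 / 2 : ℝ) ^ k₂ i) →
    0 < g' → g' < g → g < v₁ + v₂ - x - 4 * (F.S.nu (mm F c d) - F.S.nu m') →
    (∀ (S' : Sys) (dd : Dns S' F.S) (hs : ∀ i ω, 0 < (S'.P i).w ω → 0 < (F.S.P i).w (dd.π i ω)),
      v₁ ≤ pval (F.res dd hs) c d (dd.pull Z₁) m' k₁) →
    (∀ (S' : Sys) (dd : Dns S' F.S) (hs : ∀ i ω, 0 < (S'.P i).w ω → 0 < (F.S.P i).w (dd.π i ω)),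
      v₂ ≤ pval (F.res dd hs) c d (dd.pull Z₂) m' k₂) →
    (∀ (S' : Sys) (dd : Dns S' F.S) (hs : ∀ i ω, 0 < (S'.P i).w ω → 0 < (F.S.P i).w (dd.π i ω)),
      (F.res dd hs).exc c ≤ x) →
    ∃ ψ : ℕ → Nd → ℝ,
      Rare F.S (fun i ω => (2 : ℝ) ^ (-(g' * F.S.L i)) < |Real.sin (ang (f₁ i ω).n - ψ i (F.sig c d i ω))|) ∧
      Rare F.S (fun i ω => (2 : ℝ) ^ (-(g' * F.S.L i)) < |Real.sin (ang (f₂ i ω).n - ψ i (F.sig c d i ω))|)

/-- a dense system of P122 as a dense system of P106 -/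
def ofD {S' S : Sys} (d : Vale.Agent.P122.E.Dns S' S) : Dns S' S := ⟨d.π, d.L_eq, d.dom⟩

/-- the level of the angle of the two copies -/
noncomputable def lw {S : Sys} (f₁ f₂ : S.RV E8.Fr) (m' k₁ k₂ : ℕ → ℕ) (i : ℕ) (a b : S.Ω i) : ℕ :=
  C1.lev (m' i - max (k₁ i) (k₂ i)) |crs (f₁ i a).n (f₂ i b).n|

section nodense

variable {K : ℕ}

/-- **the dense event** : two copies of nearly optimal boxes cannot cross at a large angle -/
theorem no_dense (hU : StUNX) (F : Flg K) {c d : ℕ} (hK : 1 ≤ K) (hc : 1 ≤ c) (hcd : c ≤ d) (hd2 : d ≤ 2 * c) (hdK : d ≤ K)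
    (hh : 2 * (d - c) ≤ F.h) {T₁ T₂ : Type} {Z₁ : F.S.RV T₁} {Z₂ : F.S.RV T₂} {f₁ f₂ : F.S.RV E8.Fr} {C : ℝ}
    {m' k₁ k₂ : ℕ → ℕ} {v₁ v₂ x g : ℝ}
    (hm : ∀ᶠ i in (uf : Filter ℕ), k₁ i ≤ m' i ∧ k₂ i ≤ m' i ∧ m' i ≤ mm F c d i)
    (hF₁ : Sys.Fn (F.ball c) Z₁) (hF₂ : Sys.Fn (F.ball c) Z₂)
    (t₁ : ∀ (S' : Sys) (dd : Dns S' F.S) (_ : ∀ i ω, 0 < (S'.P i).w ω → 0 < (F.S.P i).w (dd.π i ω)), Tame (dd.pull Z₁))
    (t₂ : ∀ (S' : Sys) (dd : Dns S' F.S) (_ : ∀ i ω, 0 < (S'.P i).w ω → 0 < (F.S.P i).w (dd.π i ω)), Tame (dd.pull Z₂))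
    (P₁ : PB C (Hc F c) (fun i => (1 / 2 : ℝ) ^ mm F c d i) (pray F c d) Z₁ f₁ (fun i _ => (1 / 2 : ℝ) ^ m' i)
      (fun i _ => (1 / 2 : ℝ) ^ k₁ i))
    (P₂ : PB C (Hc F c) (fun i => (1 / 2 : ℝ) ^ mm F c d i) (pray F c d) Z₂ f₂ (fun i _ => (1 / 2 : ℝ) ^ m' i)
      (fun i _ => (1 / 2 : ℝ) ^ k₂ i))
    (hg : g < v₁ + v₂ - x - 4 * (F.S.nu (mm F c d) - F.S.nu m'))
    (H₁ : ∀ (S' : Sys) (dd : Dns S' F.S) (hs : ∀ i ω, 0 < (S'.P i).w ω → 0 < (F.S.P i).w (dd.π i ω)),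
      v₁ ≤ pval (F.res dd hs) c d (dd.pull Z₁) m' k₁)
    (H₂ : ∀ (S' : Sys) (dd : Dns S' F.S) (hs : ∀ i ω, 0 < (S'.P i).w ω → 0 < (F.S.P i).w (dd.π i ω)),
      v₂ ≤ pval (F.res dd hs) c d (dd.pull Z₂) m' k₂)
    (Hx : ∀ (S' : Sys) (dd : Dns S' F.S) (hs : ∀ i ω, 0 < (S'.P i).w ω → 0 < (F.S.P i).w (dd.π i ω)),
      (F.res dd hs).exc c ≤ x)
    (hA : ∀ κ : ℝ, 0 < κ → ∀ᶠ i in (uf : Filter ℕ), (2:ℝ) ^ (-(κ * F.S.L i)) <
      prE (cp (F.S.P i) (F.sig c d i)) (fun w => (lw f₁ f₂ m' k₁ k₂ i w.1 w.2 : ℝ) < g * F.S.L i)) : False := by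
  set W : F.S.RV Nd := F.sig c d with hW
  set A : ∀ i, (cpS F.S W).Ω i → Prop := fun i w => (lw f₁ f₂ m' k₁ k₂ i w.1 w.2 : ℝ) < g * F.S.L i with hAdef
  let S₃ : Sys := onS (cpS F.S W) A
  let d₃ : Vale.Agent.P122.E.Dns S₃ (cpS F.S W) := onDns (cpS F.S W) A hA
  let D₀ : Dns S₃ F.S := ofD (dExt d₃ (cp0 F.S W))
  let D₁ : Dns S₃ F.S := ofD (dExt d₃ (cp1 F.S W))
  have fA : S₃.Ae fun i w => A i w := onS_supp (S := cpS F.S W) hA
  have sp : ∀ i w, 0 < (S₃.P i).w w → W i w.1 = W i w.2 ∧ 0 < (F.S.P i).w w.1 ∧ 0 < (F.S.P i).w w.2 := fun i w hw =>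
    cp_supp (P := F.S.P i) (W := W i) (w := w) (on_supp hw)
  have sp0 : ∀ i w, 0 < (S₃.P i).w w → 0 < (F.S.P i).w (D₀.π i w) := fun i w hw => (sp i w hw).2.1
  have sp1 : ∀ i w, 0 < (S₃.P i).w w → 0 < (F.S.P i).w (D₁.π i w) := fun i w hw => (sp i w hw).2.2
  let F₀ : Flg K := F.res D₀ sp0
  let F₁ : Flg K := F.res D₁ sp1
  let ex : Ext S₃ F₀.S := Ext.refl S₃
  -- the data on `S₃`
  have e0 : ∀ i w, F₀.sig c d i w = W i w.1 := fun _ _ => rfl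
  have e1 : ∀ i w, F₁.sig c d i w = W i w.2 := fun _ _ => rfl
  have er : ∀ i w, 0 < (S₃.P i).w w → pray F c d i w.1 = pray F c d i w.2 := fun i w hw => by
    show ray _ _ (F.sig c d i w.1) = ray _ _ (F.sig c d i w.2)
    rw [show F.sig c d i w.1 = F.sig c d i w.2 from (sp i w hw).1]
  have tZ₁ : Tame (D₀.pull Z₁) := t₁ S₃ D₀ sp0
  have tZ₂ : Tame (D₁.pull Z₂) := t₂ S₃ D₁ sp1
  have b₁ : Sys.Fn (ex.pull (F₀.ball c)) (D₀.pull Z₁) := by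
    filter_upwards [hF₁] with i hi w w' p p' e
    exact hi w.1 w'.1 (sp i w p).2.1 (sp i w' p').2.1 e
  have b₂ : Sys.Fn (ex.pull (F₀.ball c)) (D₁.pull Z₂) := by
    filter_upwards [hF₂] with i hi w w' p p' e
    have h1 : (F.N c i w.2).T = (F.N c i w'.2).T := hi w.2 w'.2 (sp i w p).2.2 (sp i w' p').2.2 e
    have h2 : (W i w.1).T = (W i w.2).T := congrArg Nd.T (sp i w p).1
    have h3 : (W i w'.1).T = (W i w'.2).T := congrArg Nd.T (sp i w' p').1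
    have h2' : (F.N c i w.1).T = (F.N c i w.2).T := h2
    have h3' : (F.N c i w'.1).T = (F.N c i w'.2).T := h3
    show (F.N c i w.1).T = (F.N c i w'.1).T
    rw [h2', h3', h1]
  have Q₁ : PB C (Hc F₀ c) (fun i => (1 / 2 : ℝ) ^ mm F₀ c d i) (ex.pull (pray F₀ c d)) (D₀.pull Z₁) (D₀.pull f₁)
      (fun i _ => (1 / 2 : ℝ) ^ m' i) (fun i _ => (1 / 2 : ℝ) ^ k₁ i) := by
    refine ⟨?_, ?_⟩
    · filter_upwards [P₁.near] with i hi w w' p p' e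
      exact hi w.1 w'.1 (sp i w p).2.1 (sp i w' p').2.1 e
    · filter_upwards [P₁.ok] with i hi w p
      exact hi w.1 (sp i w p).2.1
  have Q₂ : PB C (Hc F₀ c) (fun i => (1 / 2 : ℝ) ^ mm F₀ c d i) (ex.pull (pray F₀ c d)) (D₁.pull Z₂) (D₁.pull f₂)
      (fun i _ => (1 / 2 : ℝ) ^ m' i) (fun i _ => (1 / 2 : ℝ) ^ k₂ i) := by
    refine ⟨?_, ?_⟩
    · filter_upwards [P₂.near] with i hi w w' p p' e
      have h1 := hi w.2 w'.2 (sp i w p).2.2 (sp i w' p').2.2 e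
      rw [← er i w p, ← er i w' p'] at h1
      exact h1
    · filter_upwards [P₂.ok] with i hi w p
      exact hi w.2 (sp i w p).2.2
  -- values
  have x1 := H₁ S₃ D₀ sp0
  have x2 := H₂ S₃ D₁ sp1
  have x3 := Hx S₃ D₀ sp0
  have y1 : S₃.hc (F₀.sig c d) (Sys.pr (D₀.pull Z₁) (F₀.ball c)) = S₃.hc (ex.pull (F₀.sig c d)) (D₀.pull Z₁) := by
    refine hc_congr (Eventually.of_forall fun _ _ _ _ _ q => congrArg Prod.fst q)
      (Eventually.of_forall fun _ _ _ _ _ q => congrArg Prod.fst q) ?_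
      (Eventually.of_forall fun _ _ _ _ _ q => congrArg Prod.fst q)
    filter_upwards [b₁] with i hi w w' p p' e
    exact Prod.ext e (hi w w' p p' e)
  have y2 : S₃.hc (F₁.sig c d) (Sys.pr (D₁.pull Z₂) (F₁.ball c)) = S₃.hc (ex.pull (F₀.sig c d)) (D₁.pull Z₂) := by
    refine hc_congr (Eventually.of_forall fun i w w' p p' q => ?_)
      (Eventually.of_forall fun i w w' p p' q => ?_) ?_
      (Eventually.of_forall fun _ _ _ _ _ q => congrArg Prod.fst q)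
    · have h1 : W i w.1 = W i w'.1 := congrArg Prod.fst q
      show W i w.2 = W i w'.2
      rw [← (sp i w p).1, ← (sp i w' p').1, h1]
    · have h1 : W i w.2 = W i w'.2 := congrArg Prod.fst q
      show W i w.1 = W i w'.1
      rw [(sp i w p).1, (sp i w' p').1, h1]
    · filter_upwards [hF₂] with i hi w w' p p' e
      exact Prod.ext e (hi w.2 w'.2 (sp i w p).2.2 (sp i w' p').2.2 e)
  -- mutual information
  have m0 : S₃.mi (D₁.pull Z₂) (D₀.pull Z₁) (ex.pull (F₀.sig c d)) ≤ 0 :=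
    mi_cpS (S := F.S) (S' := S₃) (W := W) d₃ (X := Z₁) (Y := Z₂) tZ₂
  -- the average of the level
  have hbm : F.S.Bd m' := by
    refine ⟨2 * K, ?_⟩
    filter_upwards [hm] with i hi
    have h1 : m' i ≤ (2 * c - d) * F.n i := hi.2.2
    have h2 : (m' i : ℝ) ≤ ((2 * c - d : ℕ) : ℝ) * F.n i := by exact_mod_cast h1
    have h3 : ((2 * c - d : ℕ) : ℝ) ≤ 2 * K := by
      have : 2 * c - d ≤ 2 * K := by omega
      exact_mod_cast this
    have h4 : (F.n i : ℝ) ≤ F.S.L i := by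
      rw [F.L_eq]
      push_cast
      have : (1 : ℝ) ≤ K := by exact_mod_cast hK
      nlinarith [(Nat.cast_nonneg (F.n i) : (0 : ℝ) ≤ F.n i)]
    calc (m' i : ℝ) ≤ ((2 * c - d : ℕ) : ℝ) * F.n i := h2
      _ ≤ 2 * K * F.n i := mul_le_mul_of_nonneg_right h3 (Nat.cast_nonneg _)
      _ ≤ 2 * K * F.S.L i := mul_le_mul_of_nonneg_left h4 (by positivity)
  have av_le : ∀ G : S₃.RV ℕ, (∀ i w, G i w ≤ m' i) →
      (∀ᶠ i in (uf : Filter ℕ), ∀ w, G i w = lw f₁ f₂ m' k₁ k₂ i w.1 w.2) → S₃.av (fun i w => (G i w : ℝ)) ≤ g := by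
    intro G hG hGe
    have oL : OL (S := S₃) fun i w => (G i w : ℝ) := ol_nat (S := S₃) (n := m') hbm G hG
    unfold Sys.av
    refine ulim_le_const (UB.av oL) ?_
    filter_upwards [fA, S₃.L_pos, hGe] with i hi hL he
    have hL' : (0:ℝ) < S₃.L i := by exact_mod_cast hL
    rw [div_le_iff₀ hL']
    have h3 := (S₃.P i).ex_mono (f := fun w => (G i w : ℝ)) (g := fun _ => g * S₃.L i) (fun w p => by
      have h4 : (lw f₁ f₂ m' k₁ k₂ i w.1 w.2 : ℝ) < g * F.S.L i := hi w p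
      show (G i w : ℝ) ≤ g * S₃.L i
      rw [he w]
      exact h4.le)
    rwa [(S₃.P i).ex_const] at h3
  have hh0 : 2 * (d - c) ≤ F₀.h := hh
  rcases Ultrafilter.eventually_or.1 (Eventually.of_forall (f := (uf : Filter ℕ)) fun i => le_total (k₁ i) (k₂ i)) with hk | hk
  · have key := hU F₀ c d hK hc hcd hd2 hdK hh0 S₃ ex T₁ T₂ (D₀.pull Z₁) (D₁.pull Z₂) (D₀.pull f₁) (D₁.pull f₂) C m' k₁ k₂
      (by
        filter_upwards [hk, hm] with i h1 h2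
        exact ⟨h1, h2.2.1, h2.2.2⟩) b₁ b₂ tZ₁ tZ₂ Q₁ Q₂
    have m1 : S₃.av (fun i w => (lvG (m' i - k₂ i) (D₀.pull f₁ i w) (D₁.pull f₂ i w) : ℝ)) ≤ g := by
      refine av_le (fun i w => lvG (m' i - k₂ i) (D₀.pull f₁ i w) (D₁.pull f₂ i w))
        (fun i w => (C1.lev_le _ _).trans (Nat.sub_le _ _)) ?_
      filter_upwards [hk] with i h1 w
      unfold lw lvG
      rw [max_eq_right h1]
      rfl
    have x1' : v₁ ≤ S₃.hc (ex.pull (F₀.sig c d)) (D₀.pull Z₁) -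
        ulim fun i => lvol (F₀.n i) c (Hc F₀ c i) ((1 / 2 : ℝ) ^ m' i) ((1 / 2 : ℝ) ^ k₁ i) / F₀.S.L i := by
      rw [← y1]
      exact x1
    have x2' : v₂ ≤ S₃.hc (ex.pull (F₀.sig c d)) (D₁.pull Z₂) -
        ulim fun i => lvol (F₀.n i) c (Hc F₀ c i) ((1 / 2 : ℝ) ^ m' i) ((1 / 2 : ℝ) ^ k₂ i) / F₀.S.L i := by
      rw [← y2]
      exact x2
    have n1 : F₀.S.nu (mm F₀ c d) = F.S.nu (mm F c d) := rfl
    have n2 : F₀.S.nu m' = F.S.nu m' := rfl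
    rw [n1, n2] at key
    have x3' : F₀.exc c ≤ x := x3
    linarith
  · have key := hU F₀ c d hK hc hcd hd2 hdK hh0 S₃ ex T₂ T₁ (D₁.pull Z₂) (D₀.pull Z₁) (D₁.pull f₂) (D₀.pull f₁) C m' k₂ k₁
      (by
        filter_upwards [hk, hm] with i h1 h2
        exact ⟨h1, h2.1, h2.2.2⟩) b₂ b₁ tZ₂ tZ₁ Q₂ Q₁
    have m1 : S₃.av (fun i w => (lvG (m' i - k₁ i) (D₁.pull f₂ i w) (D₀.pull f₁ i w) : ℝ)) ≤ g := by
      refine av_le (fun i w => lvG (m' i - k₁ i) (D₁.pull f₂ i w) (D₀.pull f₁ i w))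
        (fun i w => (C1.lev_le _ _).trans (Nat.sub_le _ _)) ?_
      filter_upwards [hk] with i h1 w
      unfold lw lvG
      rw [max_eq_left h1, crs_comm]
      rfl
    have x1' : v₁ ≤ S₃.hc (ex.pull (F₀.sig c d)) (D₀.pull Z₁) -
        ulim fun i => lvol (F₀.n i) c (Hc F₀ c i) ((1 / 2 : ℝ) ^ m' i) ((1 / 2 : ℝ) ^ k₁ i) / F₀.S.L i := by
      rw [← y1]
      exact x1
    have x2' : v₂ ≤ S₃.hc (ex.pull (F₀.sig c d)) (D₁.pull Z₂) -
        ulim fun i => lvol (F₀.n i) c (Hc F₀ c i) ((1 / 2 : ℝ) ^ m' i) ((1 / 2 : ℝ) ^ k₂ i) / F₀.S.L i := by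
      rw [← y2]
      exact x2
    have n1 : F₀.S.nu (mm F₀ c d) = F.S.nu (mm F c d) := rfl
    have n2 : F₀.S.nu m' = F.S.nu m' := rfl
    rw [n1, n2] at key
    have m2 : S₃.mi (D₀.pull Z₁) (D₁.pull Z₂) (ex.pull (F₀.sig c d)) ≤ 0 := by
      rw [mi_comm tZ₁ tZ₂]
      exact m0
    have x3' : F₀.exc c ≤ x := x3
    linarith

end nodense

theorem prb_eq' (S : Sys) (A : ∀ i, S.Ω i → Prop) (i : ℕ) : prb S A i = prE (S.P i) (A i) :=
  Vale.Agent.P122.H380.prb_eq S A i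

theorem exists_supp {Ω : Type} [Fintype Ω] (P : Law Ω) : ∃ ω, 0 < P.w ω := by
  by_contra hcon
  push Not at hcon
  have : ∑ ω, P.w ω ≤ 0 := Finset.sum_nonpos fun ω _ => hcon ω
  rw [P.sum_one] at this
  linarith

/-- **[FRM]** from **[UNX]** -/
theorem stFRM' (hU : StUNX) : StFRM' := by
  classical
  intro K F c d hK hc hcd hd2 hdK hh T₁ T₂ Z₁ Z₂ f₁ f₂ C m' k₁ k₂ v₁ v₂ x g g' hm hF₁ hF₂ t₁ t₂ P₁ P₂ hg0 hgg hg H₁ H₂ Hx
  -- the probability of the bad event is exponentially small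
  obtain ⟨κ, hκ, hκ'⟩ : ∃ κ : ℝ, 0 < κ ∧ ∀ᶠ i in (uf : Filter ℕ),
      prE (cp (F.S.P i) (F.sig c d i)) (fun w => (lw f₁ f₂ m' k₁ k₂ i w.1 w.2 : ℝ) < g * F.S.L i) ≤
        (2:ℝ) ^ (-(κ * F.S.L i)) := by
    by_contra hcon
    push Not at hcon
    exact no_dense hU F hK hc hcd hd2 hdK hh hm hF₁ hF₂ t₁ t₂ P₁ P₂ hg H₁ H₂ Hx fun κ hκ => hcon κ hκ
  set W : F.S.RV Nd := F.sig c d with hW
  set R : ∀ i, F.S.Ω i → F.S.Ω i → Prop := fun i a b =>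
    (lw f₁ f₂ m' k₁ k₂ i a b : ℝ) < g * F.S.L i ∨ ¬ 0 < (F.S.P i).w a with hR
  have hκR : ∀ᶠ i in (uf : Filter ℕ), prE (cp (F.S.P i) (W i)) (fun w => R i w.1 w.2) ≤ (2:ℝ) ^ (-(κ * F.S.L i)) := by
    filter_upwards [hκ'] with i hi
    refine le_trans (prE_mono' _ fun w hw hbad => ?_) hi
    rcases hbad with h | h
    · exact h
    · exact absurd (cp_supp hw).2.1 h
  choose s hs1 hs2 hs3 using fun i => select (F.S.P i) (W i) (R i)
  set ψ : ℕ → Nd → ℝ := fun i y => if h : ∃ ω, W i ω = y then ang (f₁ i (s i h.choose)).n else 0 with hψ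
  have hψ' : ∀ i ω, ψ i (W i ω) = ang (f₁ i (s i ω)).n := by
    intro i ω
    have h : ∃ ω', W i ω' = W i ω := ⟨ω, rfl⟩
    simp only [hψ]
    rw [dif_pos h, hs2 i h.choose ω h.choose_spec]
  -- constants
  have hC : 0 < C := by
    obtain ⟨i, hi⟩ := P₁.ok.exists
    obtain ⟨ω, hω⟩ := exists_supp (F.S.P i)
    have h1 : 1 ≤ C * ((f₁ i ω).n 0 ^ 2 + (f₁ i ω).n 1 ^ 2) := (hi ω hω).1
    by_contra hcon
    push Not at hcon
    have h2 : 0 ≤ (f₁ i ω).n 0 ^ 2 + (f₁ i ω).n 1 ^ 2 := by positivity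
    nlinarith
  have hLt : Tendsto (fun i => (F.S.L i : ℝ)) (uf : Filter ℕ) atTop := tendsto_natCast_atTop_atTop.comp F.S.Ltop
  have hsm : ∀ᶠ i in (uf : Filter ℕ), 4 * C * (2 : ℝ) ^ (-(g * F.S.L i)) ≤ (2 : ℝ) ^ (-(g' * F.S.L i)) := by
    have h1 : Tendsto (fun i => (g - g') * (F.S.L i : ℝ)) (uf : Filter ℕ) atTop := hLt.const_mul_atTop (by linarith)
    filter_upwards [h1.eventually_ge_atTop (Real.logb 2 (4 * C))] with i hi
    have h2 : 4 * C ≤ (2 : ℝ) ^ ((g - g') * (F.S.L i : ℝ)) := by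
      rw [← Real.logb_le_iff_le_rpow (by norm_num) (by positivity)]
      exact hi
    have h3 : (2 : ℝ) ^ (-(g' * F.S.L i)) = (2 : ℝ) ^ ((g - g') * (F.S.L i : ℝ)) * (2 : ℝ) ^ (-(g * F.S.L i)) := by
      rw [← Real.rpow_add (by norm_num)]
      congr 1
      ring
    rw [h3]
    exact mul_le_mul_of_nonneg_right h2 (by positivity)
  -- a large level gives a small angle
  have hsin : ∀ᶠ i in (uf : Filter ℕ), ∀ a b, 0 < (F.S.P i).w b → ¬ R i a b →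
      |Real.sin (ang (f₁ i a).n - ang (f₂ i b).n)| ≤ C * (2 * (2 : ℝ) ^ (-(g * F.S.L i))) := by
    filter_upwards [P₁.ok, P₂.ok, F.S.L_pos] with i o1 o2 hL a b pb hab
    have hL' : (0 : ℝ) < F.S.L i := by exact_mod_cast hL
    simp only [hR, not_or, not_lt, not_not] at hab
    obtain ⟨h1, pa⟩ := hab
    exact sin_ang hC (o1 a (by
      by_contra h
      exact absurd (not_lt.1 h) (by
        intro h'
        exact absurd pa (by simpa using h'))) |>.1) (o2 b pb).1 (crs_le_of_lev (by nlinarith) h1)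
  refine ⟨ψ, ?_, ?_⟩
  · -- the first box
    refine ⟨κ / 2, by positivity, ?_⟩
    have hL : ∀ᶠ i in (uf : Filter ℕ), 2 / κ ≤ F.S.L i := hLt.eventually_ge_atTop (2 / κ)
    filter_upwards [hκR, hL, hsm, hsin] with i hi hLi hs hsn
    rw [prb_eq']
    set p : ℝ := (2:ℝ) ^ (-(κ * F.S.L i)) with hp
    have e1 : prE (F.S.P i) (fun ω => (2:ℝ) ^ (-(g' * F.S.L i)) <
        |Real.sin (ang (f₁ i ω).n - ψ i (W i ω))|) ≤ p + p := by
      rw [← prE_cp_fst (F.S.P i) (W i)]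
      have e2 : prE (cp (F.S.P i) (W i)) (fun w => (2:ℝ) ^ (-(g' * F.S.L i)) <
          |Real.sin (ang (f₁ i w.1).n - ψ i (W i w.1))|) ≤
          prE (cp (F.S.P i) (W i)) (fun w => R i w.1 w.2 ∨ R i (s i w.2) w.2) := by
        refine prE_mono' _ fun w hw hbad => ?_
        by_contra hcon
        push Not at hcon
        obtain ⟨q1, q2⟩ := hcon
        obtain ⟨w1, w2, w3⟩ := cp_supp hw
        have q1' := hsn w.1 w.2 w3 q1
        have q2' := hsn (s i w.2) w.2 w3 q2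
        have es : s i w.1 = s i w.2 := hs2 i _ _ w1
        rw [hψ', es] at hbad
        have e3 : ang (f₁ i w.1).n - ang (f₁ i (s i w.2)).n =
            (ang (f₁ i w.1).n - ang (f₂ i w.2).n) + (ang (f₂ i w.2).n - ang (f₁ i (s i w.2)).n) := by ring
        rw [e3] at hbad
        have e4 := ExcB.sin_add_abs (ang (f₁ i w.1).n - ang (f₂ i w.2).n) (ang (f₂ i w.2).n - ang (f₁ i (s i w.2)).n)
        rw [Vale.Agent.P122.H380.abs_sin_comm (ang (f₂ i w.2).n) (ang (f₁ i (s i w.2)).n)] at e4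
        linarith
      refine e2.trans ((prE_or_le _ _ _).trans ?_)
      have e5 : prE (cp (F.S.P i) (W i)) (fun w => R i (s i w.2) w.2) ≤ p := by
        rw [prE_cp_snd (F.S.P i) (W i) (fun ω => R i (s i ω) ω)]
        exact (hs3 i).trans hi
      exact add_le_add hi e5
    refine e1.trans ?_
    have e6 : p + p = (2:ℝ) ^ (1 + -(κ * F.S.L i)) := by
      rw [Real.rpow_add (by norm_num), Real.rpow_one]
      ring
    rw [e6]
    refine Real.rpow_le_rpow_of_exponent_le (by norm_num) ?_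
    rw [div_le_iff₀ hκ] at hLi
    linarith
  · -- the second box
    refine ⟨κ, hκ, ?_⟩
    filter_upwards [hκR, hsm, hsin] with i hi hs hsn
    rw [prb_eq']
    refine le_trans (prE_mono' _ fun ω hω hbad => ?_) ((hs3 i).trans hi)
    by_contra q
    have q' := hsn (s i ω) ω hω q
    rw [Vale.Agent.P122.H380.abs_sin_comm] at q'
    have hbad' : (2:ℝ) ^ (-(g' * F.S.L i)) < |Real.sin (ang (f₂ i ω).n - ang (f₁ i (s i ω)).n)| := by
      rw [← hψ']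
      exact hbad
    have hp : (0:ℝ) < (2:ℝ) ^ (-(g * F.S.L i)) := by positivity
    have hq := mul_pos hC hp
    linarith

end Vale.Agent.P106.R.H679
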