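import Vale.Agent.P106.R.H679.Frm
import Vale.Agent.P106.R.E8.Weak

/-! # P106 / R / E8 : `StFRMw` from `StUNX` (helper679) -/

set_option autoImplicit false

namespace Vale.Agent.P106.R.H679

open Vale.Agent.P106.R.E8

/-- **[FRM]**, the form used in `E8/Fin` -/
theorem stFRMw (hU : StUNX) : StFRMw := stFRM' hU

end Vale.Agent.P106.R.H679
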